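import Vale.Agent.P181.NR.Defs

set_option autoImplicit false

/-!
# P181, NR, (N3): many tableaux with `n` letters
-/

namespace Vale.Agent.P181.NR.H820

open Vale.Agent.P181.H463 (gt nxt strips)
open Vale.Agent.P181.NR

variable {m : ℕ}

/-- The allowed lengths of row `i` after `k` letters. -/
def Al (D : ℕ) (eta : Fin m → ℕ) (k : ℕ) (i : Fin m) : Finset ℕ :=
  if k ≤ 2 * i + 2 then {0} else if 2 * i + 2 + D ≤ k then {eta i} else
    Finset.Icc ((k - (2 * i + 2)) * (eta i / D))
      ((k - (2 * i + 2)) * (eta i / D) + (eta i / D - 1))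

/-- The exponent of row `i` after `k` letters. -/
def ex0 (D k i : ℕ) : ℕ := min (k - 1 - (2 * i + 2)) (D - 1)

lemma card_Al (D : ℕ) (eta : Fin m → ℕ) (k : ℕ) (i : Fin m) :
    (Al D eta k i).card = max 1 (eta i / D) ^
      (if 2 * (i : ℕ) + 2 < k ∧ k < 2 * i + 2 + D then 1 else 0) := by
  unfold Al
  split_ifs with h1 h2 h3 h4 h5
  · omega
  · simp
  · omega
  · simp
  · rw [Nat.card_Icc, pow_one]
    generalize (k - (2 * (i : ℕ) + 2)) * (eta i / D) = A
    generalize eta i / D = B
    omega
  · omega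

lemma ex0_succ (D k i : ℕ) (hD : 1 ≤ D) :
    ex0 D (k + 1) i = ex0 D k i + if 2 * i + 2 < k ∧ k < 2 * i + 2 + D then 1 else 0 := by
  unfold ex0
  split_ifs with h <;> omega

/-- The step is a horizontal strip. -/
lemma strip_step {D : ℕ} (hD : 1 ≤ D) {eta : Fin m → ℕ} (he : Antitone eta) {k : ℕ}
    {lam mu : Fin m → ℕ} (hl : ∀ i, lam i ∈ Al D eta (k + 1) i) (hm : ∀ i, mu i ∈ Al D eta k i) :
    mu ∈ strips lam := by
  unfold strips
  rw [Fintype.mem_piFinset]
  intro i
  rw [Finset.mem_Icc]
  have hdiv : ∀ i : Fin m, D * (eta i / D) ≤ eta i := fun i => Nat.mul_div_le _ _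
  constructor
  · unfold nxt
    split_ifs with hi
    · have h1 := hl ⟨(i : ℕ) + 1, hi⟩
      have h2 := hm i
      have h3 : eta ⟨(i : ℕ) + 1, hi⟩ ≤ eta i := he (Fin.le_def.2 (Nat.le_succ _))
      have h4 : eta ⟨(i : ℕ) + 1, hi⟩ / D ≤ eta i / D := Nat.div_le_div_right h3
      have h5 := hdiv i
      unfold Al at h1 h2
      simp only at h1
      by_cases c1 : k + 1 ≤ 2 * ((i : ℕ) + 1) + 2
      · rw [if_pos c1, Finset.mem_singleton] at h1
        rw [h1]
        exact Nat.zero_le _
      · rw [if_neg c1] at h1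
        rw [if_neg (by omega)] at h2
        by_cases c2 : 2 * ((i : ℕ) + 1) + 2 + D ≤ k + 1
        · rw [if_pos c2, Finset.mem_singleton] at h1
          rw [if_pos (by omega), Finset.mem_singleton] at h2
          rw [h1, h2]
          exact h3
        · rw [if_neg c2, Finset.mem_Icc] at h1
          obtain ⟨t, ht⟩ : ∃ t, t = k + 1 - (2 * ((i : ℕ) + 1) + 2) := ⟨_, rfl⟩
          rw [← ht] at h1
          have e1 : (t + 1) * (eta ⟨(i : ℕ) + 1, hi⟩ / D) ≤ (t + 1) * (eta i / D) :=
            Nat.mul_le_mul_left _ h4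
          have e2 : (t + 1) * (eta ⟨(i : ℕ) + 1, hi⟩ / D) =
              t * (eta ⟨(i : ℕ) + 1, hi⟩ / D) + eta ⟨(i : ℕ) + 1, hi⟩ / D := Nat.succ_mul _ _
          have e3 : lam ⟨(i : ℕ) + 1, hi⟩ ≤ (t + 1) * (eta i / D) := by
            rw [e2] at e1
            have h6 := h1.2
            generalize t * (eta ⟨(i : ℕ) + 1, hi⟩ / D) = A at h6 e1
            generalize eta ⟨(i : ℕ) + 1, hi⟩ / D = B at h6 e1
            omega
          refine e3.trans ?_
          by_cases c3 : 2 * (i : ℕ) + 2 + D ≤ k
          · rw [if_pos c3, Finset.mem_singleton] at h2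
            rw [h2]
            refine le_trans (Nat.mul_le_mul_right _ ?_) h5
            omega
          · rw [if_neg c3, Finset.mem_Icc] at h2
            refine le_trans (Nat.mul_le_mul_right _ ?_) h2.1
            omega
    · exact Nat.zero_le _
  · have h1 := hl i
    have h2 := hm i
    have h5 := hdiv i
    unfold Al at h1 h2
    by_cases c1 : k ≤ 2 * (i : ℕ) + 2
    · rw [if_pos c1, Finset.mem_singleton] at h2
      rw [h2]
      exact Nat.zero_le _
    · rw [if_neg c1] at h2
      rw [if_neg (by omega)] at h1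
      by_cases c2 : 2 * (i : ℕ) + 2 + D ≤ k
      · rw [if_pos c2, Finset.mem_singleton] at h2
        rw [if_pos (by omega), Finset.mem_singleton] at h1
        rw [h1, h2]
      · rw [if_neg c2, Finset.mem_Icc] at h2
        have e3 : mu i ≤ (k + 1 - (2 * (i : ℕ) + 2)) * (eta i / D) := by
          have h6 : k + 1 - (2 * (i : ℕ) + 2) = (k - (2 * (i : ℕ) + 2)) + 1 := by omega
          rw [h6, Nat.succ_mul]
          have h7 := h2.2
          generalize (k - (2 * (i : ℕ) + 2)) * (eta i / D) = A at h7 ⊢
          generalize eta i / D = B at h7 ⊢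
          omega
        refine e3.trans ?_
        by_cases c3 : 2 * (i : ℕ) + 2 + D ≤ k + 1
        · rw [if_pos c3, Finset.mem_singleton] at h1
          rw [h1]
          refine le_trans (Nat.mul_le_mul_right _ ?_) h5
          omega
        · rw [if_neg c3, Finset.mem_Icc] at h1
          exact h1.1

/-- The count. -/
lemma count {D : ℕ} (hD : 1 ≤ D) {eta : Fin m → ℕ} (he : Antitone eta) :
    ∀ (k : ℕ) (lam : Fin m → ℕ), (∀ i, lam i ∈ Al D eta k i) →
      ∏ i, max 1 (eta i / D) ^ ex0 D k i ≤ gt m k lam := by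
  intro k
  induction k with
  | zero =>
    intro lam hl
    have h1 : lam = 0 := by
      funext i
      have h2 := hl i
      unfold Al at h2
      rw [if_pos (Nat.zero_le _), Finset.mem_singleton] at h2
      exact h2
    have h2 : gt m 0 lam = 1 := by
      rw [gt, if_pos h1]
    rw [h2, Finset.prod_eq_one]
    intro i _
    have h3 : ex0 D 0 i = 0 := by
      unfold ex0
      omega
    rw [h3, pow_zero]
  | succ k ih =>
    intro lam hl
    have hsub : Fintype.piFinset (fun i => Al D eta k i) ⊆ strips lam := by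
      intro mu hmu
      rw [Fintype.mem_piFinset] at hmu
      exact strip_step hD he hl hmu
    calc ∏ i, max 1 (eta i / D) ^ ex0 D (k + 1) i
        = (∏ i, (Al D eta k i).card) * ∏ i, max 1 (eta i / D) ^ ex0 D k i := by
          rw [← Finset.prod_mul_distrib]
          refine Finset.prod_congr rfl fun i _ => ?_
          rw [ex0_succ D k i hD, pow_add, card_Al, mul_comm]
      _ = ∑ _mu ∈ Fintype.piFinset (fun i => Al D eta k i),
            ∏ i, max 1 (eta i / D) ^ ex0 D k i := by
          rw [Finset.sum_const, Fintype.card_piFinset, smul_eq_mul]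
      _ ≤ ∑ mu ∈ Fintype.piFinset (fun i => Al D eta k i), gt m k mu := by
          refine Finset.sum_le_sum fun mu hmu => ?_
          rw [Fintype.mem_piFinset] at hmu
          exact ih mu hmu
      _ ≤ ∑ mu ∈ strips lam, gt m k mu := Finset.sum_le_sum_of_subset hsub
      _ = gt m (k + 1) lam := by rw [gt]

/-- **(N3)**. -/
theorem gtS : GtS := by
  intro m n eta he hn
  have h1 := count (D := n - 2 * m) (by omega) he n eta (fun i => by
    have hi := i.2
    unfold Al
    rw [if_neg (by omega), if_pos (by omega)]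
    exact Finset.mem_singleton_self _)
  refine le_trans (le_of_eq ?_) h1
  refine Finset.prod_congr rfl fun i _ => ?_
  have hi := i.2
  congr 1
  unfold ex0
  omega

end Vale.Agent.P181.NR.H820
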